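import Mathlib

/-!
P042 helper: from the mixed-scale recursion `41 * G (25 n) + 2050 * G n ≤ G (42025 n)` to the
power lower bound `G N ≥ c * N ^ (367/500)`.

The exponent `367/500 = 0.734` lies strictly between the previous record
`(1 + log 12 / log 205) / 2 = 0.733411...` and the root `0.734397...` of
`41 * 1681 ^ (-x) + 2050 * 42025 ^ (-x) = 1`.
-/

namespace Vale.Agent.Lib.P042

/-- `25 ^ (367/500) ≥ 53/5` -/
lemma rpow_lower : (53 / 5 : ℝ) ≤ (25 : ℝ) ^ ((367 : ℝ) / 500) := by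
  have h1 : ((53 / 5 : ℝ)) ^ (500 : ℕ) ≤ (25 : ℝ) ^ (367 : ℕ) := by
    have e1 : ((53 / 5 : ℝ)) ^ (500 : ℕ) = (53 / 5) ^ (250 : ℕ) * (53 / 5) ^ (250 : ℕ) := by
      rw [← pow_add]
    have e2 : (25 : ℝ) ^ (367 : ℕ) = 25 ^ (200 : ℕ) * 25 ^ (167 : ℕ) := by
      rw [← pow_add]
    rw [e1, e2]
    norm_num
  have h2 : ((53 / 5 : ℝ) ^ (500 : ℕ)) ^ (((500 : ℕ) : ℝ)⁻¹)
      ≤ ((25 : ℝ) ^ (367 : ℕ)) ^ (((500 : ℕ) : ℝ)⁻¹) :=
    Real.rpow_le_rpow (by positivity) h1 (by positivity)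
  have h3 : ((53 / 5 : ℝ) ^ (500 : ℕ)) ^ (((500 : ℕ) : ℝ)⁻¹) = 53 / 5 :=
    Real.pow_rpow_inv_natCast (by positivity) (by norm_num)
  have h4 : ((25 : ℝ) ^ (367 : ℕ)) ^ (((500 : ℕ) : ℝ)⁻¹) = (25 : ℝ) ^ ((367 : ℝ) / 500) := by
    have e : ((367 : ℕ) : ℝ) * (((500 : ℕ) : ℝ))⁻¹ = (367 : ℝ) / 500 := by norm_num
    rw [← Real.rpow_natCast, ← Real.rpow_mul (by norm_num), e]
  rw [h3, h4] at h2
  exact h2

/-- `42025 ^ (367/500) ≤ 2476` -/
lemma rpow_upper : (42025 : ℝ) ^ ((367 : ℝ) / 500) ≤ 2476 := by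
  have h1 : (42025 : ℝ) ^ (367 : ℕ) ≤ (2476 : ℝ) ^ (500 : ℕ) := by
    have e1 : (42025 : ℝ) ^ (367 : ℕ) = 42025 ^ (200 : ℕ) * 42025 ^ (167 : ℕ) := by
      rw [← pow_add]
    have e2 : (2476 : ℝ) ^ (500 : ℕ) = 2476 ^ (250 : ℕ) * 2476 ^ (250 : ℕ) := by
      rw [← pow_add]
    rw [e1, e2]
    norm_num
  have h2 : ((42025 : ℝ) ^ (367 : ℕ)) ^ (((500 : ℕ) : ℝ)⁻¹)
      ≤ ((2476 : ℝ) ^ (500 : ℕ)) ^ (((500 : ℕ) : ℝ)⁻¹) :=
    Real.rpow_le_rpow (by positivity) h1 (by positivity)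
  have h3 : ((2476 : ℝ) ^ (500 : ℕ)) ^ (((500 : ℕ) : ℝ)⁻¹) = 2476 :=
    Real.pow_rpow_inv_natCast (by positivity) (by norm_num)
  have h4 : ((42025 : ℝ) ^ (367 : ℕ)) ^ (((500 : ℕ) : ℝ)⁻¹)
      = (42025 : ℝ) ^ ((367 : ℝ) / 500) := by
    have e : ((367 : ℕ) : ℝ) * (((500 : ℕ) : ℝ))⁻¹ = (367 : ℝ) / 500 := by norm_num
    rw [← Real.rpow_natCast, ← Real.rpow_mul (by norm_num), e]
  rw [h3, h4] at h2
  exact h2

/-- **Growth from the mixed-scale recursion.**  A monotone function `G : ℕ → ℕ` that is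
positive on the positive integers and satisfies `41 * G (25 n) + 2050 * G n ≤ G (42025 n)`
grows at least like `N ^ 0.734`. -/
theorem growth_of_recursion (G : ℕ → ℕ) (hmono : Monotone G) (hpos : ∀ n, 1 ≤ n → 1 ≤ G n)
    (hrec : ∀ n, 41 * G (25 * n) + 2050 * G n ≤ G (42025 * n)) :
    ∃ c : ℝ, 0 < c ∧ ∀ N : ℕ, 1 ≤ N → c * (N : ℝ) ^ ((367 : ℝ) / 500) ≤ G N := by
  set γ : ℝ := (367 : ℝ) / 500 with hγ
  have hγ0 : 0 < γ := by norm_num [hγ]
  have hγ1 : γ ≤ 1 := by norm_num [hγ]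
  have hnum : (42025 : ℝ) ^ γ * (1 + 1 / 300) ≤ 41 * (25 : ℝ) ^ γ + 2050 := by
    have h1 := rpow_lower
    have h2 := rpow_upper
    rw [← hγ] at h1 h2
    linarith
  refine ⟨1 / 12607500, by norm_num, ?_⟩
  intro N
  induction N using Nat.strong_induction_on with
  | _ N ih =>
    intro hN
    by_cases hsmall : N ≤ 12607500
    · have h0 : (1 : ℝ) ≤ N := by exact_mod_cast hN
      have h1 : (N : ℝ) ^ γ ≤ (N : ℝ) := by
        calc (N : ℝ) ^ γ ≤ (N : ℝ) ^ (1 : ℝ) := Real.rpow_le_rpow_of_exponent_le h0 hγ1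
          _ = N := Real.rpow_one _
      have h2 : (N : ℝ) ≤ 12607500 := by exact_mod_cast hsmall
      have h3 : (1 : ℝ) ≤ G N := by exact_mod_cast hpos N hN
      calc 1 / 12607500 * (N : ℝ) ^ γ ≤ 1 / 12607500 * 12607500 :=
            mul_le_mul_of_nonneg_left (h1.trans h2) (by norm_num)
        _ = 1 := by norm_num
        _ ≤ G N := h3
    · rw [not_le] at hsmall
      obtain ⟨n, hn⟩ : ∃ n, n = N / 42025 := ⟨_, rfl⟩
      have hn300 : 300 ≤ n := by omega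
      have hnN : 42025 * n ≤ N := by omega
      have hNn : N < 42025 * (n + 1) := by omega
      have ih1 := ih n (by omega) (by omega)
      have ih2 := ih (25 * n) (by omega) (by omega)
      have hG : (41 * (G (25 * n) : ℝ) + 2050 * (G n : ℝ)) ≤ G N := by
        have h := (hrec n).trans (hmono hnN)
        exact_mod_cast h
      have hnpos : (0 : ℝ) < n := by
        have : 0 < n := by omega
        exact_mod_cast this
      have hnγ : 0 < (n : ℝ) ^ γ := Real.rpow_pos_of_pos hnpos γ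
      have h25 : ((25 * n : ℕ) : ℝ) ^ γ = (25 : ℝ) ^ γ * (n : ℝ) ^ γ := by
        push_cast
        rw [Real.mul_rpow (by norm_num) hnpos.le]
      have hinv : 1 / (n : ℝ) ≤ 1 / 300 := by
        apply one_div_le_one_div_of_le (by norm_num)
        exact_mod_cast hn300
      have hone : (1 : ℝ) ≤ 1 + 1 / (n : ℝ) := by
        have : (0 : ℝ) ≤ 1 / (n : ℝ) := by positivity
        linarith
      have hNle : (N : ℝ) ^ γ ≤ (42025 : ℝ) ^ γ * ((n : ℝ) ^ γ * (1 + 1 / (n : ℝ))) := by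
        have h1 : (N : ℝ) ≤ 42025 * ((n : ℝ) + 1) := by exact_mod_cast hNn.le
        calc (N : ℝ) ^ γ ≤ (42025 * ((n : ℝ) + 1)) ^ γ :=
              Real.rpow_le_rpow (by positivity) h1 hγ0.le
          _ = (42025 : ℝ) ^ γ * ((n : ℝ) + 1) ^ γ :=
              Real.mul_rpow (by norm_num) (by positivity)
          _ ≤ (42025 : ℝ) ^ γ * ((n : ℝ) ^ γ * (1 + 1 / (n : ℝ))) := by
              apply mul_le_mul_of_nonneg_left _ (by positivity)
              have h2 : (n : ℝ) + 1 = (n : ℝ) * (1 + 1 / (n : ℝ)) := by field_simp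
              rw [h2, Real.mul_rpow hnpos.le (by positivity)]
              apply mul_le_mul_of_nonneg_left _ hnγ.le
              calc (1 + 1 / (n : ℝ)) ^ γ ≤ (1 + 1 / (n : ℝ)) ^ (1 : ℝ) :=
                    Real.rpow_le_rpow_of_exponent_le hone hγ1
                _ = 1 + 1 / (n : ℝ) := Real.rpow_one _
      have hb : (0 : ℝ) < (42025 : ℝ) ^ γ := Real.rpow_pos_of_pos (by norm_num) γ
      have hkey : (N : ℝ) ^ γ ≤ (n : ℝ) ^ γ * (41 * (25 : ℝ) ^ γ + 2050) := by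
        calc (N : ℝ) ^ γ ≤ (42025 : ℝ) ^ γ * ((n : ℝ) ^ γ * (1 + 1 / (n : ℝ))) := hNle
          _ = (n : ℝ) ^ γ * ((42025 : ℝ) ^ γ * (1 + 1 / (n : ℝ))) := by ring
          _ ≤ (n : ℝ) ^ γ * ((42025 : ℝ) ^ γ * (1 + 1 / 300)) := by
              apply mul_le_mul_of_nonneg_left _ hnγ.le
              apply mul_le_mul_of_nonneg_left _ hb.le
              linarith
          _ ≤ (n : ℝ) ^ γ * (41 * (25 : ℝ) ^ γ + 2050) :=
              mul_le_mul_of_nonneg_left hnum hnγ.le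
      rw [h25] at ih2
      calc 1 / 12607500 * (N : ℝ) ^ γ
          ≤ 1 / 12607500 * ((n : ℝ) ^ γ * (41 * (25 : ℝ) ^ γ + 2050)) :=
            mul_le_mul_of_nonneg_left hkey (by norm_num)
        _ = 41 * (1 / 12607500 * ((25 : ℝ) ^ γ * (n : ℝ) ^ γ))
            + 2050 * (1 / 12607500 * (n : ℝ) ^ γ) := by ring
        _ ≤ 41 * (G (25 * n) : ℝ) + 2050 * (G n : ℝ) := by linarith
        _ ≤ G N := hG

end Vale.Agent.Lib.P042
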